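import Vale.Agent.P299.R.Smooth
import Vale.Agent.P299.Q.BB

/-!
# The local rings of smooth varieties are factorial
-/

open CategoryTheory TopologicalSpace Opposite TopCat AlgebraicGeometry

namespace Vale.Agent.P299.Q

/-- The stalks of an integral scheme smooth over `ℂ` are factorial. -/
theorem ufd_stalk_of_smooth (X : Scheme.{0}) [IsIntegral X] [X.Over SpecC]
    [Smooth (X ↘ SpecC)] (x : X) : UniqueFactorizationMonoid (X.presheaf.stalk x) := by
  obtain ⟨_, ⟨V, hV, rfl⟩, hxV, -⟩ :=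
    X.isBasis_affineOpens.exists_subset_of_mem_open (Set.mem_univ x) isOpen_univ
  have hU : IsAffineOpen (⊤ : SpecC.Opens) := isAffineOpen_top _
  have e : V ≤ (X ↘ SpecC) ⁻¹ᵁ (⊤ : SpecC.Opens) := le_top
  have hs := (X ↘ SpecC).smooth_appLE hU hV e
  have : Nonempty V := ⟨⟨x, hxV⟩⟩
  algebraize [((X ↘ SpecC).appLE ⊤ V e).hom]
  let eR : ℂ ≃+* Γ(SpecC, ⊤) := (Scheme.ΓSpecIso (CommRingCat.of ℂ)).symm.commRingCatIsoToRingEquiv
  have : IsRegularRing Γ(SpecC, ⊤) := IsRegularRing.of_ringEquiv eR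
  let _ := TopCat.Presheaf.algebra_section_stalk X.presheaf (U := V) ⟨x, hxV⟩
  have := hV.isLocalization_stalk ⟨x, hxV⟩
  exact R.ufd_of_smooth_of_atPrime Γ(SpecC, ⊤) Γ(X, V) (X.presheaf.stalk x)
    (hV.primeIdealOf ⟨x, hxV⟩).asIdeal

/-- **Auslander-Buchsbaum** for smooth projective varieties. -/
theorem factorialStalks : FactorialStalks := fun X x => ufd_stalk_of_smooth X.X x

end Vale.Agent.P299.Q
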