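import Mathlib.RingTheory.RegularLocalRing.Defs
import Mathlib.RingTheory.Ideal.Cotangent
import Mathlib.RingTheory.Nakayama
import Mathlib.RingTheory.Ideal.MinimalPrime.Noetherian

/-!
# Regular local rings: quotients by regular parameters; regular local rings are domains
-/

open IsLocalRing

namespace Vale.Agent.P299.R

variable {R : Type*} [CommRing R]

/-- A nonzero vector is part of a spanning family of `finrank` elements. -/
lemma exists_span_insert {k V : Type*} [Field k] [AddCommGroup V] [Module k V]
    [FiniteDimensional k V] {v : V} (hv : v ≠ 0) :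
    ∃ s : Finset V, s.card + 1 ≤ Module.finrank k V ∧ Submodule.span k (insert v (s : Set V)) = ⊤ := by
  classical
  have hli : LinearIndepOn k id ({v} : Set V) :=
    LinearIndepOn.singleton (v := id) (i := v) hv
  obtain ⟨b, -, hvb, hspan, hb⟩ := exists_linearIndepOn_id_extension hli (Set.subset_univ _)
  have hfin : b.Finite := LinearIndependent.setFinite hb
  refine ⟨hfin.toFinset.erase v, ?_, ?_⟩
  · have hvb' : v ∈ hfin.toFinset := by simpa using hvb (Set.mem_singleton v)
    rw [Finset.card_erase_add_one hvb']
    have := LinearIndependent.finset_card_le_finrank (R := k) (M := V) (b := hfin.toFinset) (by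
      have h2 : LinearIndependent k ((↑) : b → V) := hb
      have h3 : ((hfin.toFinset : Finset V) : Set V) = b := hfin.coe_toFinset
      have h4 : LinearIndependent k ((↑) : ((hfin.toFinset : Finset V) : Set V) → V) := by
        rw [h3]; exact h2
      exact h4)
    exact this
  · refine eq_top_iff.2 ?_
    have h1 : (Set.univ : Set V) ⊆ Submodule.span k b := hspan
    intro x _
    have hx := h1 (Set.mem_univ x)
    refine Submodule.span_mono ?_ hx
    intro y hy
    by_cases hyv : y = v
    · exact Or.inl hyv
    · exact Or.inr (by simp [hyv, hy])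

/-- The maximal ideal of a noetherian local ring is generated by `x ∉ m²` and `dim m/m² - 1` other
elements. -/
lemma exists_generators [IsLocalRing R] [IsNoetherianRing R] {x : R} (hx : x ∈ maximalIdeal R)
    (hx2 : x ∉ maximalIdeal R ^ 2) :
    ∃ s : Finset R, s.card + 1 ≤ (maximalIdeal R).spanFinrank ∧
      Ideal.span (insert x (s : Set R)) = maximalIdeal R := by
  classical
  set m := maximalIdeal R with hm
  have hv : m.toCotangent ⟨x, hx⟩ ≠ 0 := by
    intro h
    exact hx2 ((Ideal.toCotangent_eq_zero m ⟨x, hx⟩).1 h)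
  obtain ⟨s, hs, hspan⟩ := exists_span_insert (k := ResidueField R) (V := CotangentSpace R) hv
  rw [← spanFinrank_maximalIdeal_eq_finrank_cotangentSpace] at hs
  choose g hg using m.toCotangent_surjective
  let t : Finset m := s.image g
  have ht : m.toCotangent '' (insert ⟨x, hx⟩ (t : Set m)) =
      insert (m.toCotangent ⟨x, hx⟩) (s : Set (CotangentSpace R)) := by
    rw [Set.image_insert_eq]
    congr 1
    ext y
    simp only [t, Finset.coe_image, Set.mem_image, Finset.mem_coe]
    constructor
    · rintro ⟨_, ⟨z, hz, rfl⟩, rfl⟩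
      rwa [hg]
    · intro hy
      exact ⟨g y, ⟨y, hy, rfl⟩, hg y⟩
  rw [← ht, CotangentSpace.span_image_eq_top_iff] at hspan
  refine ⟨t.image Subtype.val, ?_, ?_⟩
  · refine le_trans ?_ hs
    gcongr
    exact Finset.card_image_le.trans Finset.card_image_le
  · have h1 := congrArg (Submodule.map m.subtype) hspan
    rw [Submodule.map_span, Submodule.map_top, Submodule.range_subtype] at h1
    have h2 : (m.subtype '' insert ⟨x, hx⟩ (t : Set m)) =
        insert x ((t.image Subtype.val : Finset R) : Set R) := by
      rw [Set.image_insert_eq]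
      simp
    rw [h2] at h1
    exact h1

section
variable [IsRegularLocalRing R]

lemma dim_eq : (maximalIdeal R).spanFinrank = ringKrullDim R :=
  IsRegularLocalRing.spanFinrank_maximalIdeal

/-- The quotient of a regular local ring by an element of `m ∖ m²` is regular, of smaller
dimension. -/
theorem regular_quotient {x : R} (hx : x ∈ maximalIdeal R) (hx2 : x ∉ maximalIdeal R ^ 2) :
    IsRegularLocalRing (R ⧸ Ideal.span {x}) ∧
      ringKrullDim (R ⧸ Ideal.span {x}) + 1 = ringKrullDim R := by
  classical
  have hne : Nontrivial (R ⧸ Ideal.span {x}) := by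
    refine Ideal.Quotient.nontrivial_iff.2 ?_
    intro h
    have : Ideal.span {x} ≤ maximalIdeal R := by simpa [Ideal.span_le] using hx
    exact (maximalIdeal.isMaximal R).ne_top (top_le_iff.1 (h ▸ this))
  have hloc : IsLocalRing (R ⧸ Ideal.span {x}) :=
    IsLocalRing.of_surjective' (Ideal.Quotient.mk _) Ideal.Quotient.mk_surjective
  obtain ⟨s, hs, hspan⟩ := exists_generators hx hx2
  set π := Ideal.Quotient.mk (Ideal.span {x}) with hπ
  have hmax : (maximalIdeal R).map π = maximalIdeal (R ⧸ Ideal.span {x}) := by
    have : IsLocalHom π := by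
      refine IsLocalHom.of_surjective π Ideal.Quotient.mk_surjective
    rw [IsLocalRing.eq_maximalIdeal (Ideal.map_eq_top_or_isMaximal_of_surjective π
      Ideal.Quotient.mk_surjective (maximalIdeal.isMaximal R) |>.resolve_left ?_)]
    intro h
    have h2 := ((local_hom_TFAE π).out 0 2).1 this
    exact (maximalIdeal.isMaximal _).ne_top (top_le_iff.1 (h ▸ h2))
  have hgen : Ideal.span (π '' (s : Set R)) = maximalIdeal (R ⧸ Ideal.span {x}) := by
    rw [← hmax, ← hspan, Ideal.map_span, Set.image_insert_eq]
    have : π x = 0 := Ideal.Quotient.eq_zero_iff_mem.2 (Ideal.mem_span_singleton_self x)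
    rw [this, Ideal.span_insert]
    simp
  have hcard : (maximalIdeal (R ⧸ Ideal.span {x})).spanFinrank + 1 ≤
      (maximalIdeal R).spanFinrank := by
    refine le_trans ?_ hs
    gcongr
    rw [← hgen]
    refine (Submodule.spanFinrank_span_le_ncard_of_finite (s.finite_toSet.image _)).trans ?_
    refine (Set.ncard_image_le s.finite_toSet).trans ?_
    simp
  have hdim : ringKrullDim R ≤ ringKrullDim (R ⧸ Ideal.span {x}) + 1 := by
    have := ringKrullDim_le_ringKrullDim_quotient_add_card (R := R) {x} (by
      simpa [IsLocalRing.ringJacobson_eq_maximalIdeal] using hx)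
    rwa [Finset.coe_singleton, Finset.card_singleton, Nat.cast_one] at this
  have h3 : ((maximalIdeal (R ⧸ Ideal.span {x})).spanFinrank : WithBot ℕ∞) + 1 ≤
      ringKrullDim R := by
    rw [← dim_eq]
    exact_mod_cast hcard
  have h4 : ((maximalIdeal (R ⧸ Ideal.span {x})).spanFinrank : WithBot ℕ∞) ≤
      ringKrullDim (R ⧸ Ideal.span {x}) := by
    have h5 := h3.trans hdim
    exact (ENat.WithBot.add_le_add_one_right_iff).1 h5
  have hreg := IsRegularLocalRing.of_spanFinrank_maximalIdeal_le _ h4
  refine ⟨hreg, le_antisymm ?_ hdim⟩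
  rw [← hreg.spanFinrank_maximalIdeal]
  exact h3

end

/-- A regular local ring which is not a field has an element of `m ∖ m²`. -/
theorem exists_notMem_sq_notMem_minimal [IsRegularLocalRing R] (h0 : maximalIdeal R ≠ ⊥) :
    ∃ x ∈ maximalIdeal R, x ∉ maximalIdeal R ^ 2 ∧ ∀ p ∈ minimalPrimes R, x ∉ p := by
  classical
  by_contra hcon
  push Not at hcon
  have hfin : (minimalPrimes R).Finite := minimalPrimes.finite_of_isNoetherianRing R
  let s : Finset (Ideal R) := insert (maximalIdeal R ^ 2) hfin.toFinset
  have h1 : ((maximalIdeal R : Ideal R) : Set R) ⊆ ⋃ i ∈ (↑s : Set (Ideal R)), (id i : Ideal R) := by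
    intro x hx
    simp only [s, Finset.coe_insert, Set.Finite.coe_toFinset, Set.mem_insert_iff, id,
      Set.iUnion_iUnion_eq_or_left, Set.mem_union, SetLike.mem_coe, Set.mem_iUnion, exists_prop]
    by_cases hx2 : x ∈ maximalIdeal R ^ 2
    · exact Or.inl hx2
    · obtain ⟨p, hp, hxp⟩ := hcon x hx hx2
      exact Or.inr ⟨p, hp, hxp⟩
  rw [Ideal.subset_union_prime (maximalIdeal R ^ 2) (maximalIdeal R ^ 2)] at h1
  · obtain ⟨p, hps, hp⟩ := h1
    simp only [s, Finset.mem_insert, Set.Finite.mem_toFinset, id] at hps hp
    rcases hps with rfl | hps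
    · refine h0 (Submodule.eq_bot_of_le_smul_of_le_jacobson_bot (maximalIdeal R) (maximalIdeal R)
        (IsNoetherian.noetherian _) ?_ ?_)
      · rwa [smul_eq_mul, ← pow_two]
      · exact (IsLocalRing.jacobson_eq_maximalIdeal _ bot_ne_top).ge
    · have hpp : p.IsPrime := hps.1.1
      have hpm : p = maximalIdeal R := le_antisymm (IsLocalRing.le_maximalIdeal hpp.ne_top) hp
      have h2 : p.height = 0 := Ideal.height_eq_zero_iff.2 hps
      have h3 : ringKrullDim R = 0 := by
        rw [← IsLocalRing.maximalIdeal_height_eq_ringKrullDim, ← hpm, h2]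
        rfl
      rw [← dim_eq (R := R)] at h3
      have h4 : (maximalIdeal R).spanFinrank = 0 := by exact_mod_cast h3
      exact h0 ((Submodule.spanFinrank_eq_zero_iff_eq_bot (IsNoetherian.noetherian _)).1 h4)
  · intro i hi hi1 _
    simp only [s, Finset.mem_insert, Set.Finite.mem_toFinset] at hi
    exact (hi.resolve_left hi1).1.1

universe u

/-- Every regular local ring is a domain. -/
theorem isDomain_aux (n : ℕ) : ∀ (R : Type u) [CommRing R] [IsRegularLocalRing R],
    (maximalIdeal R).spanFinrank ≤ n → IsDomain R := by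
  induction n with
  | zero =>
    intro R _ _ h
    have h1 : maximalIdeal R = ⊥ :=
      (Submodule.spanFinrank_eq_zero_iff_eq_bot (IsNoetherian.noetherian _)).1 (Nat.le_zero.1 h)
    exact (IsLocalRing.isField_iff_maximalIdeal_eq.2 h1).isDomain
  | succ n ih =>
    intro R _ _ h
    by_cases h0 : maximalIdeal R = ⊥
    · exact (IsLocalRing.isField_iff_maximalIdeal_eq.2 h0).isDomain
    obtain ⟨x, hx, hx2, hxp⟩ := exists_notMem_sq_notMem_minimal h0
    obtain ⟨hreg, hdim⟩ := regular_quotient hx hx2
    have h1 : IsDomain (R ⧸ Ideal.span {x}) := by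
      apply ih
      rw [← dim_eq, ← dim_eq] at hdim
      have h2 : (maximalIdeal (R ⧸ Ideal.span {x})).spanFinrank + 1 =
        (maximalIdeal R).spanFinrank := by exact_mod_cast hdim
      omega
    have h3 : (Ideal.span {x}).IsPrime := (Ideal.Quotient.isDomain_iff_prime _).1 h1
    obtain ⟨p, hp, hpx⟩ := Ideal.exists_minimalPrimes_le (bot_le : (⊥ : Ideal R) ≤ Ideal.span {x})
    have hpp : p.IsPrime := hp.1.1
    have hxp' : x ∉ p := hxp p hp
    have h4 : p = ⊥ := by
      refine Submodule.eq_bot_of_le_smul_of_le_jacobson_bot (Ideal.span {x}) p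
        (IsNoetherian.noetherian _) ?_ ?_
      · intro y hy
        obtain ⟨z, rfl⟩ := Ideal.mem_span_singleton'.1 (hpx hy)
        have hz : z ∈ p := (hpp.mem_or_mem hy).resolve_right hxp'
        rw [smul_eq_mul, mul_comm z x]
        exact Ideal.mul_mem_mul (Ideal.mem_span_singleton_self x) hz
      · rw [IsLocalRing.jacobson_eq_maximalIdeal _ bot_ne_top]
        simpa [Ideal.span_le] using hx
    rw [h4] at hpp
    exact IsDomain.of_bot_isPrime R

/-- Every regular local ring is a domain. -/
theorem isDomain (R : Type u) [CommRing R] [IsRegularLocalRing R] : IsDomain R :=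
  isDomain_aux _ R le_rfl

/-- The elements of `m ∖ m²` in a regular local ring are prime. -/
theorem prime_of_notMem_sq [IsRegularLocalRing R] {x : R} (hx : x ∈ maximalIdeal R)
    (hx2 : x ∉ maximalIdeal R ^ 2) : Prime x := by
  have h := (regular_quotient hx hx2).1
  have h2 := isDomain (R ⧸ Ideal.span {x})
  have h3 : (Ideal.span {x}).IsPrime := (Ideal.Quotient.isDomain_iff_prime _).1 h2
  have hx0 : x ≠ 0 := by
    rintro rfl
    exact hx2 (Ideal.zero_mem _)
  exact (Ideal.span_singleton_prime hx0).1 h3

end Vale.Agent.P299.R
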