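import Mathlib.RingTheory.Regular.Free
import Mathlib.RingTheory.Regular.IsSMulRegular
import Mathlib.LinearAlgebra.Basis.VectorSpace
import Vale.Agent.P299.R.Reg

/-!
# Finite free resolutions over regular local rings
-/

open IsLocalRing Pointwise

namespace Vale.Agent.P299.R

universe u

/-- `M` has a resolution of length `n` by finite free modules. -/
def FinRes (R : Type u) [CommRing R] : ℕ → ∀ (M : Type u) [AddCommGroup M] [Module R M], Prop
  | 0, M, _, _ => Module.Finite R M ∧ Module.Free R M
  | n + 1, M, _, _ => ∃ (k : ℕ) (f : (Fin k → R) →ₗ[R] M), Function.Surjective f ∧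
      FinRes R n (LinearMap.ker f)

lemma FinRes.congr {R : Type u} [CommRing R] {n : ℕ} {M N : Type u} [AddCommGroup M] [Module R M]
    [AddCommGroup N] [Module R N] (e : M ≃ₗ[R] N) (h : FinRes R n M) : FinRes R n N := by
  cases n with
  | zero =>
    have := h.1
    have := h.2
    exact ⟨Module.Finite.equiv e, Module.Free.of_equiv e⟩
  | succ n =>
    obtain ⟨k, f, hf, hK⟩ := h
    refine ⟨k, e.toLinearMap ∘ₗ f, e.surjective.comp hf, ?_⟩
    rwa [LinearEquiv.ker_comp]

variable {R : Type u} [CommRing R]

/-- Reduction modulo `x` of the kernel of a surjection onto a module on which `x` is regular. -/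
lemma exists_ker_equiv {x : R} {N : Type u} [AddCommGroup N] [Module R N]
    (hN : IsSMulRegular N x) {k : ℕ} (f : (Fin k → R) →ₗ[R] N) (hf : Function.Surjective f)
    (f' : (Fin k → R ⧸ Ideal.span {x}) →ₗ[R ⧸ Ideal.span {x}] QuotSMulTop x N)
    (hff' : ∀ v, Submodule.Quotient.mk (f v) = f' (fun i => Ideal.Quotient.mk _ (v i))) :
    Nonempty (QuotSMulTop x (LinearMap.ker f) ≃ₗ[R ⧸ Ideal.span {x}] LinearMap.ker f') := by
  let θ₀ : (Fin k → R) →ₗ[R] (Fin k → R ⧸ Ideal.span {x}) :=
    (Submodule.mkQ (Ideal.span {x})).compLeft (Fin k)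
  have hθ₀ : ∀ v i, θ₀ v i = Ideal.Quotient.mk _ (v i) := fun v i => rfl
  let θ : LinearMap.ker f →ₗ[R] LinearMap.ker f' :=
    { toFun := fun v => ⟨θ₀ v.1, by
        rw [LinearMap.mem_ker]
        have h1 := hff' v.1
        have h2 : f v.1 = 0 := v.2
        rw [h2, Submodule.Quotient.mk_zero] at h1
        exact h1.symm⟩
      map_add' := fun v w => by ext1; simp
      map_smul' := fun r v => by ext1; simp }
  have hsurj : Function.Surjective θ := by
    rintro ⟨w, hw⟩
    choose v hv using fun i => Ideal.Quotient.mk_surjective (w i)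
    have h1 : θ₀ v = w := funext hv
    have h2 : (Submodule.Quotient.mk (f v) : QuotSMulTop x N) = 0 := by
      rw [hff' v]
      have : (fun i => Ideal.Quotient.mk (Ideal.span {x}) (v i)) = w := funext hv
      rw [this]
      exact hw
    rw [Submodule.Quotient.mk_eq_zero] at h2
    obtain ⟨n, -, hn⟩ := (Submodule.mem_smul_pointwise_iff_exists _ _ _).1 h2
    obtain ⟨u, rfl⟩ := hf n
    refine ⟨⟨v - x • u, by simp [LinearMap.mem_ker, ← hn]⟩, Subtype.ext ?_⟩
    change θ₀ (v - x • u) = w
    rw [map_sub, h1]
    have : θ₀ (x • u) = 0 := by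
      ext i
      rw [hθ₀]
      change Ideal.Quotient.mk (Ideal.span {x}) (x * u i) = 0
      exact Ideal.Quotient.eq_zero_iff_mem.2
        (Ideal.mul_mem_right _ _ (Ideal.mem_span_singleton_self x))
    rw [this, sub_zero]
  have hker : LinearMap.ker θ = x • (⊤ : Submodule R (LinearMap.ker f)) := by
    ext ⟨v, hv⟩
    constructor
    · intro h
      have h1 : θ₀ v = 0 := congrArg Subtype.val (LinearMap.mem_ker.1 h)
      have h2 : ∀ i, ∃ u, x * u = v i := by
        intro i
        have h3 : Ideal.Quotient.mk (Ideal.span {x}) (v i) = 0 := congrFun h1 i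
        obtain ⟨a, ha⟩ := Ideal.mem_span_singleton'.1 (Ideal.Quotient.eq_zero_iff_mem.1 h3)
        exact ⟨a, by rw [mul_comm]; exact ha⟩
      choose u hu using h2
      have h4 : x • u = v := funext hu
      have h5 : f u = 0 := by
        have h6 : x • f u = 0 := by
          rw [← map_smul, h4]
          exact hv
        exact hN (by simpa using h6)
      refine (Submodule.mem_smul_pointwise_iff_exists _ _ _).2 ⟨⟨u, h5⟩, trivial, ?_⟩
      ext1
      exact h4
    · intro h
      obtain ⟨⟨u, hu⟩, -, h4⟩ := (Submodule.mem_smul_pointwise_iff_exists _ _ _).1 h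
      have h5 : x • u = v := congrArg Subtype.val h4
      rw [LinearMap.mem_ker]
      apply Subtype.ext
      change θ₀ v = 0
      rw [← h5]
      ext i
      rw [hθ₀]
      change Ideal.Quotient.mk (Ideal.span {x}) (x * u i) = 0
      exact Ideal.Quotient.eq_zero_iff_mem.2
        (Ideal.mul_mem_right _ _ (Ideal.mem_span_singleton_self x))
  let e : QuotSMulTop x (LinearMap.ker f) ≃ₗ[R] LinearMap.ker f' :=
    (Submodule.quotEquivOfEq _ _ hker.symm).trans (LinearMap.quotKerEquivOfSurjective θ hsurj)
  exact ⟨e.extendScalarsOfSurjective Ideal.Quotient.mk_surjective⟩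

/-- A finite free resolution of `N/xN` over `R/x` lifts to one of `N` over `R`. -/
theorem FinRes.of_quotient [IsLocalRing R] [IsNoetherianRing R] {x : R}
    (hx : x ∈ maximalIdeal R) (hxR : IsSMulRegular R x) (n : ℕ) :
    ∀ (N : Type u) [AddCommGroup N] [Module R N] [Module.Finite R N], IsSMulRegular N x →
      FinRes (R ⧸ Ideal.span {x}) n (QuotSMulTop x N) → FinRes R n N := by
  have hjac : x ∈ (⊥ : Ideal R).jacobson := by
    rwa [IsLocalRing.jacobson_eq_maximalIdeal _ bot_ne_top]
  have hspan : Ideal.span {x} ≤ (⊥ : Ideal R).jacobson := by simpa [Ideal.span_le] using hjac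
  induction n with
  | zero =>
    intro N _ _ _ hN h
    have := Module.finitePresentation_of_finite R N
    exact ⟨inferInstance, (Module.free_quotSMulTop_iff_free R N hjac hN).1 h.2⟩
  | succ n ih =>
    intro N _ _ _ hN h
    obtain ⟨k, f', hf', hK⟩ := h
    let q : (Fin k → R) →ₗ[R] (Fin k → R ⧸ Ideal.span {x}) :=
      (Submodule.mkQ (Ideal.span {x})).compLeft (Fin k)
    let f'' : (Fin k → R) →ₗ[R] QuotSMulTop x N := (f'.restrictScalars R) ∘ₗ q
    obtain ⟨f, hf⟩ := Module.projective_lifting_property
      (Submodule.mkQ (x • (⊤ : Submodule R N))) f'' (Submodule.mkQ_surjective _)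
    have hq : Function.Surjective q := by
      intro w
      choose v hv using fun i => Ideal.Quotient.mk_surjective (w i)
      exact ⟨v, funext hv⟩
    have hsurj : Function.Surjective f := by
      apply f.surjective_of_surjective_comp_mkQ (Ideal.span {x}) hspan
      rw [Submodule.ideal_span_singleton_smul x ⊤, hf]
      exact hf'.comp hq
    have hff' : ∀ v, Submodule.Quotient.mk (f v) = f' (fun i => Ideal.Quotient.mk _ (v i)) :=
      fun v => LinearMap.congr_fun hf v
    obtain ⟨e⟩ := exists_ker_equiv hN f hsurj f' hff'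
    refine ⟨k, f, hsurj, ih (LinearMap.ker f) ?_ (hK.congr e.symm)⟩
    intro v w hvw
    ext i
    have h1 := congrFun (congrArg Subtype.val hvw) i
    exact hxR h1

/-- Every finitely generated module over a regular local ring has a finite free resolution. -/
theorem exists_finRes (n : ℕ) : ∀ (R : Type u) [CommRing R] [IsRegularLocalRing R],
    (maximalIdeal R).spanFinrank ≤ n → ∀ (M : Type u) [AddCommGroup M] [Module R M]
      [Module.Finite R M], ∃ n, FinRes R n M := by
  induction n with
  | zero =>
    intro R _ _ h M _ _ _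
    have h1 : maximalIdeal R = ⊥ :=
      (Submodule.spanFinrank_eq_zero_iff_eq_bot (IsNoetherian.noetherian _)).1 (Nat.le_zero.1 h)
    let := (IsLocalRing.isField_iff_maximalIdeal_eq.2 h1).toField
    exact ⟨0, inferInstance, Module.Free.of_divisionRing R M⟩
  | succ n ih =>
    intro R _ _ h M _ _ _
    by_cases h0 : maximalIdeal R = ⊥
    · let := (IsLocalRing.isField_iff_maximalIdeal_eq.2 h0).toField
      exact ⟨0, inferInstance, Module.Free.of_divisionRing R M⟩
    have hdom : IsDomain R := isDomain R
    obtain ⟨x, hx, hx2, -⟩ := exists_notMem_sq_notMem_minimal h0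
    obtain ⟨hreg, hdim⟩ := regular_quotient hx hx2
    have hx0 : x ≠ 0 := by
      rintro rfl
      exact hx2 (Ideal.zero_mem _)
    have hxR : IsSMulRegular R x := by
      intro a b hab
      exact mul_left_cancel₀ hx0 hab
    have h2 : (maximalIdeal (R ⧸ Ideal.span {x})).spanFinrank ≤ n := by
      rw [← dim_eq, ← dim_eq] at hdim
      have h2 : (maximalIdeal (R ⧸ Ideal.span {x})).spanFinrank + 1 =
        (maximalIdeal R).spanFinrank := by exact_mod_cast hdim
      omega
    obtain ⟨k, f, hf⟩ := Module.Finite.exists_fin' R M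
    have hfin : Module.Finite (R ⧸ Ideal.span {x}) (QuotSMulTop x (LinearMap.ker f)) :=
      Module.Finite.of_restrictScalars_finite R _ _
    obtain ⟨m, hm⟩ := ih (R ⧸ Ideal.span {x}) h2 (QuotSMulTop x (LinearMap.ker f))
    refine ⟨m + 1, k, f, hf, FinRes.of_quotient hx hxR m _ ?_ hm⟩
    intro v w hvw
    ext i
    have h1 := congrFun (congrArg Subtype.val hvw) i
    exact hxR h1

end Vale.Agent.P299.R
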