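import Mathlib.Algebra.Module.StablyFree.Basic
import Mathlib.RingTheory.LocalProperties.Projective
import Mathlib.Algebra.Module.LocalizedModule.Submodule
import Mathlib.LinearAlgebra.Matrix.Determinant.Basic
import Mathlib.LinearAlgebra.Determinant
import Mathlib.RingTheory.TensorProduct.IsBaseChangePi
import Mathlib.RingTheory.Finiteness.Prod
import Mathlib.Algebra.Module.LocalizedModule.IsLocalization
import Vale.Agent.P299.R.Pd

/-!
# Projective localizations of modules with a finite free resolution are stably free
-/

namespace Vale.Agent.P299.R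

universe u v

section Split

variable {B M P : Type*} [CommRing B] [AddCommGroup M] [Module B M] [AddCommGroup P] [Module B P]

/-- The splitting of a surjection with a section. -/
def splitEquiv (φ : M →ₗ[B] P) (s : P →ₗ[B] M) (h : ∀ p, φ (s p) = p) :
    M ≃ₗ[B] P × LinearMap.ker φ where
  toFun v := (φ v, ⟨v - s (φ v), by simp [h]⟩)
  invFun w := s w.1 + w.2
  left_inv v := by simp
  right_inv w := by
    obtain ⟨p, ⟨v, hv⟩⟩ := w
    have hv' : φ v = 0 := hv
    simp [h, hv']
  map_add' v w := by
    ext1
    · simp
    · ext1
      simp only [map_add, Prod.mk_add_mk, Submodule.coe_add]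
      abel
  map_smul' r v := by
    ext1
    · simp
    · ext1
      simp [smul_sub]

end Split

variable {R : Type u} [CommRing R]

/-- If the localization `P` of a module with a finite free resolution is projective, it is stably
free. -/
theorem FinRes.isStablyFree (S : Submonoid R) (B : Type u) [CommRing B] [Algebra R B]
    [IsLocalization S B] (n : ℕ) : ∀ (M : Type u) [AddCommGroup M] [Module R M], FinRes R n M →
      ∀ (P : Type u) [AddCommGroup P] [Module R P] [Module B P] [IsScalarTower R B P]
        (g : M →ₗ[R] P) [IsLocalizedModule S g] [Module.Projective B P],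
        Module.IsStablyFree B P := by
  induction n with
  | zero =>
    intro M _ _ h P _ _ _ _ g _ _
    have := h.1
    have := h.2
    have : Module.Free B P := Module.free_of_isLocalizedModule S g
    infer_instance
  | succ n ih =>
    intro M _ _ h P _ _ _ _ g _ _
    obtain ⟨k, f, hf, hK⟩ := h
    let ι : (Fin k → R) →ₗ[R] (Fin k → B) :=
      LinearMap.pi fun i => Algebra.linearMap R B ∘ₗ LinearMap.proj i
    have hι : IsLocalizedModule S ι := inferInstance
    have hBk : Module.Projective B (Fin k → B) := Module.Projective.of_free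
    let φ : (Fin k → B) →ₗ[B] P :=
      (IsLocalizedModule.map S ι g f).extendScalarsOfIsLocalization S B
    have hφ : Function.Surjective φ := IsLocalizedModule.map_surjective S ι g f hf
    obtain ⟨s, hs⟩ := Module.projective_lifting_property φ LinearMap.id hφ
    have hs' : ∀ p, φ (s p) = p := fun p => LinearMap.congr_fun hs p
    have hker : (LinearMap.ker f).localized' B S ι = LinearMap.ker φ :=
      LinearMap.localized'_ker_eq_ker_localizedMap B S ι g f
    let e := splitEquiv φ s hs'
    have hproj : Module.Projective B ((LinearMap.ker f).localized' B S ι) := by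
      rw [hker]
      refine Module.Projective.of_split (LinearMap.ker φ).subtype
        ((LinearMap.snd B P (LinearMap.ker φ)) ∘ₗ e.toLinearMap) ?_
      ext ⟨v, hv⟩
      have hv' : φ v = 0 := hv
      simp [e, splitEquiv, hv']
    have hst : Module.IsStablyFree B ((LinearMap.ker f).localized' B S ι) :=
      ih (LinearMap.ker f) hK _ (Submodule.toLocalized' B S ι (LinearMap.ker f))
    rw [hker] at hst
    obtain ⟨N, _, _, _, _, hN⟩ := Module.IsStablyFree.exist_free_prod B (LinearMap.ker φ)
    have hfin : Module.Finite B (LinearMap.ker φ) := by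
      refine Module.Finite.of_surjective ((LinearMap.snd B P (LinearMap.ker φ)) ∘ₗ e.toLinearMap) ?_
      exact Prod.snd_surjective.comp e.surjective
    have hfree : Module.Free B (P × (LinearMap.ker φ × N)) :=
      Module.Free.of_equiv ((e.prodCongr (LinearEquiv.refl B N)).trans
        (LinearEquiv.prodAssoc B P (LinearMap.ker φ) N))
    exact Module.IsStablyFree.of_free_prod B P (LinearMap.ker φ × N)

/-- The determinant of an endomorphism of `B × N` whose first component takes values in `I` lies
in `I`. -/
lemma det_mem {B : Type*} [CommRing B] (I : Ideal B) {N : Type*} [AddCommGroup N] [Module B N]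
    [Module.Finite B N] [Module.Free B N] (α : (B × N) →ₗ[B] (B × N)) (h : ∀ v, (α v).1 ∈ I) :
    LinearMap.det α ∈ I := by
  classical
  let b := (Module.Basis.singleton Unit B).prod (Module.Free.chooseBasis B N)
  rw [← LinearMap.det_toMatrix b, Matrix.det_apply]
  refine I.sum_mem fun σ _ => ?_
  rw [Units.smul_def, zsmul_eq_mul]
  refine I.mul_mem_left _ (I.prod_mem (i := σ.symm (Sum.inl ())) (Finset.mem_univ _) ?_)
  rw [Equiv.apply_symm_apply, LinearMap.toMatrix_apply]
  simpa [b] using h _

/-- A stably free ideal of a noetherian domain is principal. -/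
theorem isPrincipal_of_isStablyFree {B : Type u} [CommRing B] [IsDomain B] [IsNoetherianRing B]
    (I : Ideal B) [Module.IsStablyFree B I] : I.IsPrincipal := by
  by_cases hI : I = ⊥
  · rw [hI]; exact bot_isPrincipal
  obtain ⟨y₀, hy₀, hy₀0⟩ := Submodule.exists_mem_ne_zero_of_ne_bot hI
  obtain ⟨N, _, _, _, _, _⟩ := Module.IsStablyFree.exist_free_prod B I
  let incl : (I × N) →ₗ[B] (B × N) := LinearMap.prodMap I.subtype LinearMap.id
  let mul (y : I) : (B × N) →ₗ[B] (I × N) := LinearMap.prodMap (LinearMap.toSpanSingleton B I y)
    LinearMap.id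
  have hincl : Function.Injective incl := by
    rintro ⟨a, v⟩ ⟨b, w⟩ h
    simp only [incl, LinearMap.prodMap_apply, Submodule.subtype_apply, LinearMap.id_coe, id_eq,
      Prod.mk.injEq, SetLike.coe_eq_coe] at h
    simpa using h
  have hmul : Function.Injective (mul ⟨y₀, hy₀⟩) := by
    rintro ⟨a, v⟩ ⟨b, w⟩ h
    simp only [mul, LinearMap.prodMap_apply, LinearMap.toSpanSingleton_apply, LinearMap.id_coe,
      id_eq, Prod.mk.injEq, SetLike.mk_smul_mk, smul_eq_mul, Subtype.mk.injEq, mul_eq_mul_right_iff,
      hy₀0, or_false] at h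
    simpa using h
  have hrank : Module.finrank B (B × N) = Module.finrank B (I × N) :=
    le_antisymm (LinearMap.finrank_le_finrank_of_injective hmul)
      (LinearMap.finrank_le_finrank_of_injective hincl)
  let e : (B × N) ≃ₗ[B] (I × N) := LinearEquiv.ofFinrankEq _ _ hrank
  let α : (B × N) →ₗ[B] (B × N) := incl ∘ₗ e.toLinearMap
  have hα : LinearMap.det α ∈ I := det_mem I α fun v => (e v).1.2
  have hdvd : ∀ y ∈ I, LinearMap.det α ∣ y := by
    intro y hy
    refine ⟨LinearMap.det (e.symm.toLinearMap ∘ₗ mul ⟨y, hy⟩), ?_⟩
    rw [← LinearMap.det_comp]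
    have h1 : α ∘ₗ (e.symm.toLinearMap ∘ₗ mul ⟨y, hy⟩) =
        LinearMap.prodMap (LinearMap.mulRight B y) LinearMap.id := by
      apply LinearMap.ext
      rintro ⟨a, v⟩
      simp [α, incl, mul]
    rw [h1, LinearMap.det_prodMap, LinearMap.det_mulRight]
    simp
  refine ⟨LinearMap.det α, le_antisymm (fun y hy => ?_) ?_⟩
  · exact Ideal.mem_span_singleton.2 (hdvd y hy)
  · rw [Submodule.span_singleton_le_iff_mem]
    exact hα

end Vale.Agent.P299.R
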