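import Mathlib.RingTheory.Ideal.UFD
import Mathlib.RingTheory.Localization.Algebra
import Mathlib.RingTheory.Ideal.IsPrincipal
import Vale.Agent.P299.R.Stab

/-!
# Auslander-Buchsbaum: regular local rings are factorial
-/

open IsLocalRing

namespace Vale.Agent.P299.R

universe u

set_option linter.overlappingInstances false

/-- A localization of a regular ring is regular. -/
theorem isRegularRing_of_isLocalization {R C : Type*} [CommRing R] [IsRegularRing R]
    (M : Submonoid R) [CommRing C] [Algebra R C] [IsLocalization M C] : IsRegularRing C := by
  have : IsNoetherianRing C := IsLocalization.isNoetherianRing M C inferInstance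
  rw [isRegularRing_iff]
  intro Q hQ
  have h1 : IsLocalization.AtPrime (Localization.AtPrime Q) (Q.comap (algebraMap R C)) :=
    IsLocalization.isLocalization_isLocalization_atPrime_isLocalization M _ Q
  have h2 : IsRegularLocalRing (Localization.AtPrime (Q.comap (algebraMap R C))) :=
    IsRegularRing.isRegularLocalRing_localization _
  exact IsRegularLocalRing.of_ringEquiv
    (IsLocalization.algEquiv (Q.comap (algebraMap R C)).primeCompl
      (Localization.AtPrime (Q.comap (algebraMap R C))) (Localization.AtPrime Q)).toRingEquiv

/-- In a factorial domain the extension of a height one prime ideal to a localization... is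
projective: a prime ideal of height one, or the unit ideal. -/
lemma projective_of_height_le_one {C : Type*} [CommRing C] [IsDomain C]
    [UniqueFactorizationMonoid C] (J : Ideal C) (h : J = ⊤ ∨ (J.IsPrime ∧ J.height = 1)) :
    Module.Projective C J := by
  rcases h with rfl | ⟨hp, h1⟩
  · exact Module.Projective.of_equiv (LinearEquiv.symm (Submodule.topEquiv (R := C) (M := C)))
  · have h2 : J.IsPrincipal := UniqueFactorizationMonoid.isPrincipal_of_height_eq_one h1
    have h3 : J ≠ ⊥ := J.ne_bot_of_height_eq_one h1
    exact Module.Projective.of_equiv (Ideal.isoBaseOfIsPrincipal h3)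

/-- A projective ideal of a localization of a regular local ring is stably free. -/
lemma stablyFree_of_projective {R : Type u} [CommRing R] [IsRegularLocalRing R] (M : Submonoid R)
    {B : Type u} [CommRing B] [Algebra R B] [IsLocalization M B] (J : Ideal B)
    (hJ : Module.Projective B J) : Module.IsStablyFree B J := by
  have hI : (J.comap (algebraMap R B)).map (algebraMap R B) = J := IsLocalization.map_under M B J
  obtain ⟨m, hm⟩ := exists_finRes _ R le_rfl (J.comap (algebraMap R B))
  have h1 : Module.Projective B ((J.comap (algebraMap R B)).map (algebraMap R B)) := by
    rw [hI]; exact hJ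
  have h2 := FinRes.isStablyFree M B m _ hm ((J.comap (algebraMap R B)).map (algebraMap R B))
    (Algebra.idealMap B (J.comap (algebraMap R B)))
  rwa [hI] at h2

/-- An ideal whose localizations at the maximal ideals are projective is projective. -/
lemma projective_of_local {B : Type u} [CommRing B] [IsNoetherianRing B] (J : Ideal B)
    (h : ∀ (P : Ideal B) [P.IsMaximal], Module.Projective (Localization.AtPrime P)
      (J.map (algebraMap B (Localization.AtPrime P)))) : Module.Projective B J := by
  have : Module.FinitePresentation B J := Module.finitePresentation_of_finite B J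
  exact Module.projective_of_localization_maximal' (fun P _ => Localization.AtPrime P)
    (fun P _ => J.map (algebraMap B (Localization.AtPrime P)))
    (fun P _ => Algebra.idealMap (Localization.AtPrime P) J) (fun P hP => h P)

/-- **Auslander-Buchsbaum.** -/
theorem ufd_aux (n : ℕ) : ∀ (R : Type u) [CommRing R] [IsDomain R] [IsLocalRing R]
    [IsRegularRing R], ringKrullDim R ≤ n → UniqueFactorizationMonoid R := by
  induction n with
  | zero =>
    intro R _ _ _ _ h
    have hreg : IsRegularLocalRing R := IsRegularLocalRing.of_isRegularRing_of_isLocalRing R
    have h1 : maximalIdeal R = ⊥ := by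
      rw [← dim_eq] at h
      exact (Submodule.spanFinrank_eq_zero_iff_eq_bot (IsNoetherian.noetherian _)).1
        (Nat.le_zero.1 (by exact_mod_cast h))
    let := (IsLocalRing.isField_iff_maximalIdeal_eq.2 h1).toField
    infer_instance
  | succ n ih =>
    intro R _ _ _ _ h
    have hreg : IsRegularLocalRing R := IsRegularLocalRing.of_isRegularRing_of_isLocalRing R
    by_cases h0 : maximalIdeal R = ⊥
    · let := (IsLocalRing.isField_iff_maximalIdeal_eq.2 h0).toField
      infer_instance
    obtain ⟨x, hx, hx2, -⟩ := exists_notMem_sq_notMem_minimal h0
    have hxp : Prime x := prime_of_notMem_sq hx hx2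
    rw [UniqueFactorizationMonoid.iff_localizationAway_of_prime hxp]
    set B := Localization.Away x with hB
    have : IsDomain B := IsLocalization.Away.isDomain B hxp.ne_zero
    have : IsNoetherianRing B := IsLocalization.isNoetherianRing (Submonoid.powers x) B inferInstance
    refine UniqueFactorizationMonoid.of_forall_isPrincipal_of_height_eq_one fun J hJ hJ1 => ?_
    have hproj : Module.Projective B J := by
      refine projective_of_local J fun P hP => ?_
      have hC : IsLocalization.AtPrime (Localization.AtPrime P) (P.comap (algebraMap R B)) :=
        IsLocalization.isLocalization_isLocalization_atPrime_isLocalization (Submonoid.powers x) _ P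
      have hPx : x ∉ P.comap (algebraMap R B) := by
        intro hxP
        have h1 : algebraMap R B x ∈ P := hxP
        exact hP.ne_top (P.eq_top_of_isUnit_mem h1
          (IsLocalization.Away.algebraMap_isUnit (S := B) x))
      have hlt : P.comap (algebraMap R B) < maximalIdeal R := by
        refine lt_of_le_of_ne (IsLocalRing.le_maximalIdeal (Ideal.IsPrime.ne_top inferInstance)) ?_
        intro h2
        exact hPx (h2 ▸ hx)
      have hdim : ringKrullDim (Localization.AtPrime P) ≤ n := by
        rw [IsLocalization.AtPrime.ringKrullDim_eq_height (P.comap (algebraMap R B))]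
        have h3 := Ideal.height_add_one_le_of_lt_of_isPrime hlt
        have h4 : (maximalIdeal R).height ≤ (n + 1 : ℕ) := by
          rw [← IsLocalRing.maximalIdeal_height_eq_ringKrullDim] at h
          exact_mod_cast h
        have h5 := h3.trans h4
        have h6 : (P.comap (algebraMap R B)).height ≤ (n : ℕ∞) := by
          push_cast at h5
          exact (ENat.add_le_add_iff_right ENat.one_ne_top).1 h5
        exact_mod_cast h6
      have hregC : IsRegularRing (Localization.AtPrime P) :=
        isRegularRing_of_isLocalization (P.comap (algebraMap R B)).primeCompl
      have hufd : UniqueFactorizationMonoid (Localization.AtPrime P) :=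
        ih (Localization.AtPrime P) hdim
      apply projective_of_height_le_one
      by_cases hJP : J ≤ P
      · right
        have hdisj : Disjoint (P.primeCompl : Set B) (J : Set B) := by
          rw [Set.disjoint_left]
          intro a ha haJ
          exact ha (hJP haJ)
        exact ⟨IsLocalization.isPrime_of_isPrime_disjoint P.primeCompl _ J hJ hdisj, by
          rw [IsLocalization.height_map_of_disjoint P.primeCompl J hdisj, hJ1]⟩
      · left
        obtain ⟨a, haJ, haP⟩ := Set.not_subset.1 hJP
        exact Ideal.eq_top_of_isUnit_mem _ (Ideal.mem_map_of_mem _ haJ)
          (IsLocalization.map_units (Localization.AtPrime P) (⟨a, haP⟩ : P.primeCompl))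
    have hst : Module.IsStablyFree B J := stablyFree_of_projective (Submonoid.powers x) J hproj
    exact isPrincipal_of_isStablyFree J

/-- **Auslander-Buchsbaum**: a local domain all of whose localizations are regular is
factorial. -/
theorem ufd (R : Type u) [CommRing R] [IsDomain R] [IsLocalRing R] [IsRegularRing R] :
    UniqueFactorizationMonoid R := by
  have hreg : IsRegularLocalRing R := IsRegularLocalRing.of_isRegularRing_of_isLocalRing R
  exact ufd_aux _ R dim_eq.ge

end Vale.Agent.P299.R
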