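import Mathlib.RingTheory.RegularLocalRing.Polynomial
import Mathlib.RingTheory.Unramified.LocalRing
import Mathlib.RingTheory.Ideal.GoingDown
import Mathlib.RingTheory.Flat.Localization
import Vale.Agent.P299.Q.EtaleNormal
import Mathlib.RingTheory.Smooth.StandardSmoothOfFree
import Vale.Agent.P299.R.Ufd

/-!
# Local rings of smooth varieties are factorial
-/

open IsLocalRing

namespace Vale.Agent.P299.R

universe u

/-- Regularity is inherited by étale algebras. -/
theorem isRegularRing_of_etale (P A : Type*) [CommRing P] [IsRegularRing P] [CommRing A]
    [Algebra P A] [Algebra.Etale P A] : IsRegularRing A := by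
  have hflat : Module.Flat P A := inferInstance
  have : IsNoetherianRing A := Algebra.FiniteType.isNoetherianRing P A
  rw [isRegularRing_iff]
  intro Q hQ
  let p := Q.under P
  let := Localization.AtPrime.algebraOfLiesOver p Q
  have hreg : IsRegularLocalRing (Localization.AtPrime p) :=
    IsRegularRing.isRegularLocalRing_localization _
  have hess : Algebra.EssFiniteType (Localization.AtPrime p) (Localization.AtPrime Q) :=
    .of_comp P _ _
  have hloc : IsLocalHom (algebraMap (Localization.AtPrime p) (Localization.AtPrime Q)) := by
    rw [Localization.AtPrime.IsLiesOverAlgebra.algebraMap_eq]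
    infer_instance
  have hmap : (maximalIdeal (Localization.AtPrime p)).map
      (algebraMap (Localization.AtPrime p) (Localization.AtPrime Q)) =
        maximalIdeal (Localization.AtPrime Q) :=
    Algebra.FormallyUnramified.map_maximalIdeal
  apply IsRegularLocalRing.of_spanFinrank_maximalIdeal_le
  have hfg := (maximalIdeal (Localization.AtPrime p)).fg_of_isNoetherianRing
  have hfin := Submodule.FG.finite_generators hfg
  have h1 : (maximalIdeal (Localization.AtPrime Q)).spanFinrank ≤
      (maximalIdeal (Localization.AtPrime p)).spanFinrank := by
    rw [← hmap]
    conv_lhs => rw [← (maximalIdeal (Localization.AtPrime p)).span_generators]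
    change (Ideal.map _ (Ideal.span _)).spanFinrank ≤ _
    rw [Ideal.map_span]
    refine (Submodule.spanFinrank_span_le_ncard_of_finite (hfin.image _)).trans ?_
    refine (Set.ncard_image_le hfin).trans ?_
    rw [Submodule.FG.generators_ncard hfg]
  have h2 : p.height ≤ Q.height := by
    rw [Ideal.height_eq_height_add_of_liesOver_of_hasGoingDown p Q]
    exact le_self_add
  calc ((maximalIdeal (Localization.AtPrime Q)).spanFinrank : WithBot ℕ∞)
      ≤ (maximalIdeal (Localization.AtPrime p)).spanFinrank := by exact_mod_cast h1
    _ = ringKrullDim (Localization.AtPrime p) := dim_eq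
    _ = p.height := IsLocalization.AtPrime.ringKrullDim_eq_height p _
    _ ≤ Q.height := by exact_mod_cast h2
    _ = ringKrullDim (Localization.AtPrime Q) :=
        (IsLocalization.AtPrime.ringKrullDim_eq_height Q _).symm

/-- The local rings of a smooth algebra over a regular ring are regular. -/
theorem isRegularRing_of_smooth_of_atPrime (R A B : Type*) [CommRing R] [IsRegularRing R]
    [CommRing A] [Algebra R A] [Algebra.Smooth R A]
    [CommRing B] [Algebra A B] (p : Ideal A) [p.IsPrime] [IsLocalization.AtPrime B p] :
    IsRegularRing B := by
  obtain ⟨f, hf, n, alg, tower, std⟩ :=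
    Algebra.IsSmoothAt.exists_isStandardEtale_mvPolynomial (R := R) (p := p)
  have hle : Submonoid.powers f ≤ p.primeCompl := by
    rw [Submonoid.powers_le]
    exact hf
  have : IsRegularRing (Localization.Away f) :=
    isRegularRing_of_etale (MvPolynomial (Fin n) R) _
  let _ := IsLocalization.localizationAlgebraOfSubmonoidLe (Localization.Away f) B
    (.powers f) p.primeCompl hle
  have := IsLocalization.localization_isScalarTower_of_submonoid_le (Localization.Away f) B
    (.powers f) p.primeCompl hle
  have := IsLocalization.isLocalization_of_submonoid_le (Localization.Away f) B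
    (.powers f) p.primeCompl hle
  exact isRegularRing_of_isLocalization (p.primeCompl.map (algebraMap A (Localization.Away f)))

/-- The local rings of a smooth algebra over a regular ring are factorial. -/
theorem ufd_of_smooth_of_atPrime (R A : Type*) (B : Type u) [CommRing R] [IsRegularRing R]
    [CommRing A] [Algebra R A] [Algebra.Smooth R A]
    [CommRing B] [IsDomain B] [Algebra A B] (p : Ideal A) [p.IsPrime]
    [IsLocalization.AtPrime B p] : UniqueFactorizationMonoid B := by
  have : IsLocalRing B := IsLocalization.AtPrime.isLocalRing B p
  have : IsRegularRing B := isRegularRing_of_smooth_of_atPrime R A B p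
  exact ufd B

end Vale.Agent.P299.R
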