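import Mathlib.RingTheory.KrullDimension.Polynomial
import Vale.Agent.P299.R.Smooth
import Vale.Agent.P299.Q.FrameAlg

/-!
# The dimension of the local rings of a smooth algebra
-/

open IsLocalRing

namespace Vale.Agent.P299.R

/-- The local rings of an étale algebra have at most the dimension of the local rings below. -/
theorem dim_le_of_etale (P A : Type*) [CommRing P] [IsRegularRing P] [CommRing A]
    [Algebra P A] [Algebra.Etale P A] (Q : Ideal A) [Q.IsPrime] :
    ringKrullDim (Localization.AtPrime Q) ≤ ringKrullDim P := by
  have : IsNoetherianRing A := Algebra.FiniteType.isNoetherianRing P A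
  let p := Q.under P
  let := Localization.AtPrime.algebraOfLiesOver p Q
  have hreg : IsRegularLocalRing (Localization.AtPrime p) :=
    IsRegularRing.isRegularLocalRing_localization _
  have hess : Algebra.EssFiniteType (Localization.AtPrime p) (Localization.AtPrime Q) :=
    .of_comp P _ _
  have hloc : IsLocalHom (algebraMap (Localization.AtPrime p) (Localization.AtPrime Q)) := by
    rw [Localization.AtPrime.IsLiesOverAlgebra.algebraMap_eq]
    infer_instance
  have hmap : (maximalIdeal (Localization.AtPrime p)).map
      (algebraMap (Localization.AtPrime p) (Localization.AtPrime Q)) =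
        maximalIdeal (Localization.AtPrime Q) :=
    Algebra.FormallyUnramified.map_maximalIdeal
  have hfg := (maximalIdeal (Localization.AtPrime p)).fg_of_isNoetherianRing
  have hfin := Submodule.FG.finite_generators hfg
  have h1 : (maximalIdeal (Localization.AtPrime Q)).spanFinrank ≤
      (maximalIdeal (Localization.AtPrime p)).spanFinrank := by
    rw [← hmap]
    conv_lhs => rw [← (maximalIdeal (Localization.AtPrime p)).span_generators]
    change (Ideal.map _ (Ideal.span _)).spanFinrank ≤ _
    rw [Ideal.map_span]
    refine (Submodule.spanFinrank_span_le_ncard_of_finite (hfin.image _)).trans ?_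
    refine (Set.ncard_image_le hfin).trans ?_
    rw [Submodule.FG.generators_ncard hfg]
  calc ringKrullDim (Localization.AtPrime Q)
      ≤ (maximalIdeal (Localization.AtPrime Q)).spanFinrank :=
        ringKrullDim_le_spanFinrank_maximalIdeal _
    _ ≤ ((maximalIdeal (Localization.AtPrime p)).spanFinrank : WithBot ℕ∞) := by exact_mod_cast h1
    _ = ringKrullDim (Localization.AtPrime p) := dim_eq
    _ = p.height := IsLocalization.AtPrime.ringKrullDim_eq_height p _
    _ ≤ ringKrullDim P := Ideal.height_le_ringKrullDim_of_ne_top (Ideal.IsPrime.ne_top inferInstance)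

end Vale.Agent.P299.R

namespace Vale.Agent.P299.Q

/-- Local coordinates of a smooth algebra and the dual derivations of the field of fractions; their
number is at least the dimension of the local ring. -/
theorem exists_frame_algebra_dim (k A B K : Type*) [Field k] [CommRing A] [Algebra k A]
    [Algebra.Smooth k A] (p : Ideal A) [p.IsPrime] [CommRing B] [Algebra A B]
    [IsLocalization.AtPrime B p] [Algebra k B] [IsScalarTower k A B] [Field K] [Algebra B K]
    [IsFractionRing B K] [Algebra k K] [IsScalarTower k B K] :
    ∃ (n : ℕ) (t : Fin n → B) (w : Fin n → Derivation k K K),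
      (∀ i j, w i (algebraMap B K (t j)) = if i = j then 1 else 0) ∧
      (∀ i b, ∃ b', w i (algebraMap B K b) = algebraMap B K b') ∧
      (∀ d d' : Derivation k K K, (∀ j, d (algebraMap B K (t j)) = d' (algebraMap B K (t j))) →
        d = d') ∧ ringKrullDim B ≤ n := by
  obtain ⟨f, hf, n, alg, tower, std⟩ :=
    Algebra.IsSmoothAt.exists_isStandardEtale_mvPolynomial (R := k) (p := p)
  have hle : Submonoid.powers f ≤ p.primeCompl := by
    rw [Submonoid.powers_le]
    exact hf
  let _ := IsLocalization.localizationAlgebraOfSubmonoidLe (Localization.Away f) B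
    (.powers f) p.primeCompl hle
  have := IsLocalization.localization_isScalarTower_of_submonoid_le (Localization.Away f) B
    (.powers f) p.primeCompl hle
  have hloc := IsLocalization.isLocalization_of_submonoid_le (Localization.Away f) B
    (.powers f) p.primeCompl hle
  let _ : Algebra (MvPolynomial (Fin n) k) B :=
    ((algebraMap (Localization.Away f) B).comp
      (algebraMap (MvPolynomial (Fin n) k) (Localization.Away f))).toAlgebra
  have t1 : IsScalarTower (MvPolynomial (Fin n) k) (Localization.Away f) B :=
    IsScalarTower.of_algebraMap_eq' rfl
  have t2 : IsScalarTower k (MvPolynomial (Fin n) k) B := by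
    refine IsScalarTower.of_algebraMap_eq fun c => ?_
    rw [IsScalarTower.algebraMap_apply (MvPolynomial (Fin n) k) (Localization.Away f) B,
      ← IsScalarTower.algebraMap_apply k (MvPolynomial (Fin n) k) (Localization.Away f),
      IsScalarTower.algebraMap_apply k A (Localization.Away f),
      ← IsScalarTower.algebraMap_apply A (Localization.Away f) B,
      ← IsScalarTower.algebraMap_apply k A B]
  have e1 : Algebra.FormallyEtale (Localization.Away f) B :=
    Algebra.FormallyEtale.of_isLocalization
      (p.primeCompl.map (algebraMap A (Localization.Away f)))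
  have e2 : Algebra.FormallyEtale (MvPolynomial (Fin n) k) B :=
    Algebra.FormallyEtale.comp (MvPolynomial (Fin n) k) (Localization.Away f) B
  let _ : Algebra (MvPolynomial (Fin n) k) K :=
    ((algebraMap B K).comp (algebraMap (MvPolynomial (Fin n) k) B)).toAlgebra
  have t3 : IsScalarTower (MvPolynomial (Fin n) k) B K :=
    IsScalarTower.of_algebraMap_eq' rfl
  have t4 : IsScalarTower k (MvPolynomial (Fin n) k) K := by
    refine IsScalarTower.of_algebraMap_eq fun c => ?_
    rw [IsScalarTower.algebraMap_apply (MvPolynomial (Fin n) k) B K,
      ← IsScalarTower.algebraMap_apply k (MvPolynomial (Fin n) k) B,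
      ← IsScalarTower.algebraMap_apply k B K]
  have e3 : Algebra.FormallyEtale B K := Algebra.FormallyEtale.of_isLocalization (nonZeroDivisors B)
  have e4 : Algebra.FormallyEtale (MvPolynomial (Fin n) k) K :=
    Algebra.FormallyEtale.comp (MvPolynomial (Fin n) k) B K
  have hX : ∀ j : Fin n, algebraMap B K
      (algebraMap (MvPolynomial (Fin n) k) B (MvPolynomial.X j)) =
      algebraMap (MvPolynomial (Fin n) k) K (MvPolynomial.X j) := fun j =>
    (IsScalarTower.algebraMap_apply _ _ _ _).symm
  refine ⟨n, fun j => algebraMap (MvPolynomial (Fin n) k) B (MvPolynomial.X j),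
    partialDer k n K, fun i j => ?_, fun i b => ?_, fun d d' h => ?_, ?_⟩
  · rw [hX, partialDer_apply]
  · refine ⟨partialDer k n B i b, ?_⟩
    have h1 : (partialDer k n K i).compAlgebraMap B =
        (Algebra.linearMap B K).compDer (partialDer k n B i) := by
      refine der_eq_of_coord (n := n) fun j => ?_
      change partialDer k n K i (algebraMap B K _) = algebraMap B K (partialDer k n B i _)
      rw [hX, partialDer_apply, partialDer_apply]
      split_ifs
      · rw [map_one]
      · rw [map_zero]
    exact congrArg (fun d => d b) h1
  · refine der_eq_of_coord (n := n) fun j => ?_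
    rw [← hX]
    exact h j
  · have hBloc : IsLocalRing B := IsLocalization.AtPrime.isLocalRing B p
    set m := IsLocalRing.maximalIdeal B with hm
    have h1 : IsLocalization.AtPrime (Localization.AtPrime m)
        (m.comap (algebraMap (Localization.Away f) B)) :=
      IsLocalization.isLocalization_isLocalization_atPrime_isLocalization
        (p.primeCompl.map (algebraMap A (Localization.Away f))) _ m
    have h2 : ringKrullDim B = ringKrullDim (Localization.AtPrime m) := by
      rw [IsLocalization.AtPrime.ringKrullDim_eq_height m (Localization.AtPrime m),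
        IsLocalRing.maximalIdeal_height_eq_ringKrullDim]
    have h3 := ringKrullDim_eq_of_ringEquiv (IsLocalization.algEquiv
      (m.comap (algebraMap (Localization.Away f) B)).primeCompl (Localization.AtPrime m)
      (Localization.AtPrime (m.comap (algebraMap (Localization.Away f) B)))).toRingEquiv
    rw [h2, h3]
    refine (R.dim_le_of_etale (MvPolynomial (Fin n) k) (Localization.Away f) _).trans ?_
    rw [MvPolynomial.ringKrullDim_of_isNoetherianRing, ringKrullDim_eq_zero_of_field, zero_add,
      Nat.card_eq_fintype_card, Fintype.card_fin]

end Vale.Agent.P299.Q
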